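import Mathlib

/-!
P328, STAR at an uncapped column (paper proof: thread note 1169): finite-sum algebra.

`BB A g h = ∑_A g h - (∑_A g)(∑_A h)/|A|` is the covariance sum of `g, h` over the finite set
`A`, and `SS A g = BB A g g` the sum of squares about the mean.  This file has the algebra of
these forms (bilinearity, Cauchy-Schwarz, union of two sets) and the abstract form of the
inductive step of the dual star inequality.
-/

namespace Vale.Agent.H54.CT

open Finset

section forms

variable {α : Type*}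

/-- Covariance sum over a finite set. -/
noncomputable def BB (A : Finset α) (g h : α → ℝ) : ℝ :=
  ∑ x ∈ A, g x * h x - (∑ x ∈ A, g x) * (∑ x ∈ A, h x) / (A.card : ℝ)

/-- Sum of squares about the mean over a finite set. -/
noncomputable def SS (A : Finset α) (g : α → ℝ) : ℝ := BB A g g

theorem SS_def (A : Finset α) (g : α → ℝ) :
    SS A g = ∑ x ∈ A, g x ^ 2 - (∑ x ∈ A, g x) ^ 2 / (A.card : ℝ) := by
  unfold SS BB
  congr 1
  · exact Finset.sum_congr rfl (fun x _ => by ring)
  · ring

theorem BB_comm (A : Finset α) (g h : α → ℝ) : BB A g h = BB A h g := by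
  unfold BB
  congr 1
  · exact Finset.sum_congr rfl (fun x _ => by ring)
  · ring

theorem BB_sum_left {ι : Type*} (I : Finset ι) (A : Finset α) (g : ι → α → ℝ) (h : α → ℝ) :
    BB A (fun x => ∑ b ∈ I, g b x) h = ∑ b ∈ I, BB A (g b) h := by
  unfold BB
  rw [Finset.sum_sub_distrib]
  congr 1
  · rw [Finset.sum_comm]
    exact Finset.sum_congr rfl (fun x _ => by rw [Finset.sum_mul])
  · rw [Finset.sum_comm, ← Finset.sum_div, ← Finset.sum_mul]

theorem BB_sum_right {ι : Type*} (I : Finset ι) (A : Finset α) (g : α → ℝ) (h : ι → α → ℝ) :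
    BB A g (fun x => ∑ b ∈ I, h b x) = ∑ b ∈ I, BB A g (h b) := by
  rw [BB_comm, BB_sum_left]
  exact Finset.sum_congr rfl (fun b _ => BB_comm _ _ _)

theorem BB_sub_sub (A : Finset α) (g g' h h' : α → ℝ) :
    BB A (fun x => g x - g' x) (fun x => h x - h' x)
      = BB A g h - BB A g h' - BB A g' h + BB A g' h' := by
  unfold BB
  have e1 : ∑ x ∈ A, (g x - g' x) * (h x - h' x)
      = ∑ x ∈ A, g x * h x - ∑ x ∈ A, g x * h' x - ∑ x ∈ A, g' x * h x
        + ∑ x ∈ A, g' x * h' x := by
    rw [← Finset.sum_sub_distrib, ← Finset.sum_sub_distrib, ← Finset.sum_add_distrib]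
    exact Finset.sum_congr rfl (fun x _ => by ring)
  rw [e1, Finset.sum_sub_distrib, Finset.sum_sub_distrib]
  ring

/-- A function constant on `A` has zero covariance sum with everything. -/
theorem BB_const_left (A : Finset α) (g h : α → ℝ) (c : ℝ) (hg : ∀ x ∈ A, g x = c) :
    BB A g h = 0 := by
  unfold BB
  rw [Finset.sum_congr rfl (fun x hx => by rw [hg x hx] : ∀ x ∈ A, g x * h x = c * h x),
    Finset.sum_congr rfl (fun x hx => hg x hx : ∀ x ∈ A, g x = c), ← Finset.mul_sum]
  simp only [Finset.sum_const, nsmul_eq_mul]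
  by_cases hA : (A.card : ℝ) = 0
  · have : A = ∅ := by
      have h0 : A.card = 0 := by exact_mod_cast hA
      exact Finset.card_eq_zero.1 h0
    subst this
    simp
  · field_simp
    ring

theorem BB_centred (A : Finset α) (hA : A.Nonempty) (g h : α → ℝ) :
    BB A g h = ∑ x ∈ A, (g x - (∑ y ∈ A, g y) / (A.card : ℝ))
      * (h x - (∑ y ∈ A, h y) / (A.card : ℝ)) := by
  have hc : (A.card : ℝ) ≠ 0 := by
    have := Finset.card_pos.2 hA
    positivity
  have e : ∀ x ∈ A, (g x - (∑ y ∈ A, g y) / (A.card : ℝ))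
      * (h x - (∑ y ∈ A, h y) / (A.card : ℝ))
      = g x * h x - (∑ y ∈ A, h y) / (A.card : ℝ) * g x
        - (∑ y ∈ A, g y) / (A.card : ℝ) * h x
        + (∑ y ∈ A, g y) / (A.card : ℝ) * ((∑ y ∈ A, h y) / (A.card : ℝ)) := by
    intro x _
    ring
  rw [Finset.sum_congr rfl e, Finset.sum_add_distrib, Finset.sum_sub_distrib,
    Finset.sum_sub_distrib, ← Finset.mul_sum, ← Finset.mul_sum]
  simp only [Finset.sum_const, nsmul_eq_mul]
  unfold BB
  field_simp
  ring

theorem SS_nonneg (A : Finset α) (g : α → ℝ) : 0 ≤ SS A g := by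
  rcases A.eq_empty_or_nonempty with hA | hA
  · subst hA
    simp [SS, BB]
  · unfold SS
    rw [BB_centred A hA]
    exact Finset.sum_nonneg (fun x _ => mul_self_nonneg _)

/-- Cauchy-Schwarz for the covariance sum. -/
theorem BB_sq_le (A : Finset α) (g h : α → ℝ) : BB A g h ^ 2 ≤ SS A g * SS A h := by
  rcases A.eq_empty_or_nonempty with hA | hA
  · subst hA
    simp [SS, BB]
  · unfold SS
    rw [BB_centred A hA g h, BB_centred A hA g g, BB_centred A hA h h]
    have := Finset.sum_mul_sq_le_sq_mul_sq A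
      (fun x => g x - (∑ y ∈ A, g y) / (A.card : ℝ))
      (fun x => h x - (∑ y ∈ A, h y) / (A.card : ℝ))
    simpa [pow_two] using this

/-- The sum of squares about the mean is at most the sum of squares about any constant. -/
theorem SS_le_sum_sq_sub (A : Finset α) (g : α → ℝ) (c : ℝ) :
    SS A g ≤ ∑ x ∈ A, (g x - c) ^ 2 := by
  rcases A.eq_empty_or_nonempty with hA | hA
  · subst hA
    simp [SS, BB]
  · have hc : (0 : ℝ) < (A.card : ℝ) := by
      have := Finset.card_pos.2 hA
      positivity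
    rw [SS_def]
    have e : ∑ x ∈ A, (g x - c) ^ 2
        = ∑ x ∈ A, g x ^ 2 - 2 * c * ∑ x ∈ A, g x + c ^ 2 * (A.card : ℝ) := by
      rw [Finset.mul_sum, ← Finset.sum_sub_distrib]
      have : c ^ 2 * (A.card : ℝ) = ∑ _x ∈ A, c ^ 2 := by
        simp only [Finset.sum_const, nsmul_eq_mul]
        ring
      rw [this, ← Finset.sum_add_distrib]
      exact Finset.sum_congr rfl (fun x _ => by ring)
    rw [e]
    have key : (∑ x ∈ A, g x) ^ 2 / (A.card : ℝ)
        - (2 * c * ∑ x ∈ A, g x - c ^ 2 * (A.card : ℝ))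
        = (∑ x ∈ A, g x - c * (A.card : ℝ)) ^ 2 / (A.card : ℝ) := by
      field_simp
      ring
    have hnn : 0 ≤ (∑ x ∈ A, g x - c * (A.card : ℝ)) ^ 2 / (A.card : ℝ) :=
      div_nonneg (sq_nonneg _) hc.le
    linarith

/-- Polarisation: the double sum of the covariance sums of the differences. -/
theorem BB_polar {ι : Type*} [Fintype ι] (A : Finset α) (g h : ι → α → ℝ) :
    ∑ b, ∑ c, BB A (fun x => g b x - g c x) (fun x => h b x - h c x)
      = 2 * (Fintype.card ι : ℝ) * ∑ b, BB A (g b) (h b)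
        - 2 * BB A (fun x => ∑ b, g b x) (fun x => ∑ b, h b x) := by
  have e : ∀ b c, BB A (fun x => g b x - g c x) (fun x => h b x - h c x)
      = BB A (g b) (h b) - BB A (g b) (h c) - BB A (g c) (h b) + BB A (g c) (h c) :=
    fun b c => BB_sub_sub A _ _ _ _
  simp only [e]
  simp only [Finset.sum_add_distrib, Finset.sum_sub_distrib, Finset.sum_const, Finset.card_univ,
    nsmul_eq_mul]
  have h1 : ∑ b : ι, ∑ c : ι, BB A (g b) (h c)
      = BB A (fun x => ∑ b, g b x) (fun x => ∑ b, h b x) := by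
    rw [BB_sum_left]
    exact Finset.sum_congr rfl (fun b _ => (BB_sum_right _ _ _ _).symm)
  have h2 : ∑ b : ι, ∑ c : ι, BB A (g c) (h b)
      = BB A (fun x => ∑ b, g b x) (fun x => ∑ b, h b x) := by
    rw [Finset.sum_comm]
    exact h1
  rw [h1, h2, ← Finset.mul_sum]
  ring

end forms

end Vale.Agent.H54.CT
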