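import Vale.Agent.H91.CT.LiftLower
import Vale.Agent.H54.CT.SSAlg

/-!
P328, STAR at an uncapped column: the structure of the optimal lift in the abstract layered
framework `Sur2Aux` (classes of a relation `R`, level `T`, depth `D`).

The optimal lift `w = avgRel R f - corr` is a class-invariant function `u` minus a function of
the level; hence `|w|^2 = <f, u>`, and the sums of squares of `u` about its level means add up
to at most `|w|^2`.
-/

namespace Vale.Agent.H54.CT

open Finset Vale.Agent.H90 Vale.Agent.H91.CT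

/-- The combination of Helmert functions at a level `t ≤ D`: a function of `t` minus a function
of `D`. -/
theorem helmert_sum (κ : ℕ → ℝ) (t D : ℕ) (htD : t ≤ D) :
    ∑ j ∈ Icc 1 D, κ j * Sur2Aux.hh j t
      = (t : ℝ) * κ t + ∑ j ∈ Icc 1 t, κ j - ∑ j ∈ Icc 1 D, κ j := by
  induction D, htD using Nat.le_induction with
  | base =>
    rcases Nat.eq_zero_or_pos t with h0 | hpos
    · subst h0
      simp
    · obtain ⟨t', rfl⟩ : ∃ t', t = t' + 1 := ⟨t - 1, by omega⟩
      rw [Finset.sum_Icc_succ_top (by omega), Sur2Aux.hh_self]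
      rw [Finset.sum_eq_zero (fun j hj => by
        rw [Sur2Aux.hh_gt (by have := (mem_Icc.1 hj).2; omega), mul_zero])]
      push_cast
      ring
  | succ D hD ih =>
    rw [Finset.sum_Icc_succ_top (by omega), ih, Finset.sum_Icc_succ_top (by omega) κ,
      Sur2Aux.hh_lt (by omega)]
    ring

section abs

variable {Ω : Type*} [Fintype Ω] [DecidableEq Ω] (R : Ω → Ω → Prop) [DecidableRel R]
  (T D : Ω → ℕ)

/-- The optimal lift of a centred `f`: zero level sums, the class averages of `f`, and of the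
form (class-invariant function) minus (function of the level). -/
theorem lift_struct (hR : Equivalence R) (hD : ∀ X Y, R X Y → D X = D Y)
    (hCL : ∀ (X : Ω) (G : ℕ → ℝ),
      ∑ Y ∈ univ.filter (fun Y => R X Y), G (T Y) = ∑ s ∈ range (D X + 1), G s)
    (M : ℕ) (hM : ∀ X, D X ≤ M) (f : Ω → ℝ) (hf : ∑ X, f X = 0) :
    ∃ (w u : Ω → ℝ) (ψ : ℕ → ℝ),
      (∀ t : ℕ, ∑ X ∈ univ.filter (fun X => T X = t), w X = 0) ∧
      avgRel R w = avgRel R f ∧ (∀ X Y, R X Y → u X = u Y) ∧ (∀ X, w X = u X - ψ (T X)) := by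
  refine ⟨fun X => avgRel R f X - Sur2Aux.corr T D f X,
    fun X => avgRel R f X + ∑ j ∈ Icc 1 (D X), Sur2Aux.kap T D f j,
    fun t => (t : ℝ) * Sur2Aux.kap T D f t + ∑ j ∈ Icc 1 t, Sur2Aux.kap T D f j,
    Sur2Aux.level_sum R T D hR hD hCL M hM f hf, ?_, ?_, ?_⟩
  · have e : (fun X => avgRel R f X - Sur2Aux.corr T D f X)
        = avgRel R f - Sur2Aux.corr T D f := rfl
    rw [e, avgRel_sub, avgRel_idem hR, Sur2Aux.avg_corr R T D hD hCL f, sub_zero]
  · intro X Y h
    simp only
    rw [avgRel_of_rel hR f h, hD X Y h]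
  · intro X
    simp only
    unfold Sur2Aux.corr
    rw [helmert_sum _ _ _ (Sur2Aux.T_le_D R T D hR hCL X)]
    ring

omit [DecidableEq Ω] in
/-- The square norm of a lift of the form (class-invariant `u`) minus (function of the level)
is the pairing of `f` with `u`. -/
theorem lift_norm (hR : Equivalence R) (f w u : Ω → ℝ) (ψ : ℕ → ℝ)
    (hw : ∀ t : ℕ, ∑ X ∈ univ.filter (fun X => T X = t), w X = 0)
    (hwf : avgRel R w = avgRel R f) (hu : ∀ X Y, R X Y → u X = u Y)
    (hwu : ∀ X, w X = u X - ψ (T X)) :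
    ∑ X, w X ^ 2 = ∑ X, f X * u X := by
  have h1 : ∑ X, w X * ψ (T X) = 0 := by
    rw [← Finset.sum_fiberwise_of_maps_to (s := univ) (t := univ.image T) (g := T)
      (fun X _ => Finset.mem_image_of_mem T (Finset.mem_univ X))]
    refine Finset.sum_eq_zero (fun t _ => ?_)
    have e : ∀ X ∈ univ.filter (fun X => T X = t), w X * ψ (T X) = w X * ψ t := by
      intro X hX
      rw [(mem_filter.1 hX).2]
    rw [Finset.sum_congr rfl e, ← Finset.sum_mul, hw t, zero_mul]
  have h2 : ∑ X, w X * u X = ∑ X, f X * u X := by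
    have hu' : avgRel R u = u := avgRel_eq_self hR u hu
    have e1 := avgRel_dot hR w u
    have e2 := avgRel_dot hR f u
    rw [hu'] at e1 e2
    rw [hwf] at e1
    unfold dot at e1 e2
    rw [e1, ← e2]
  have e : ∀ X, w X ^ 2 = w X * u X - w X * ψ (T X) := by
    intro X
    rw [← mul_sub, ← hwu X]
    ring
  rw [Finset.sum_congr rfl (fun X _ => e X), Finset.sum_sub_distrib, h1, sub_zero, h2]

omit [DecidableEq Ω] in
/-- The sums of squares of `u` about its level means are at most the square norm of the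
lift. -/
theorem level_SS_le (w u : Ω → ℝ) (ψ : ℕ → ℝ) (hwu : ∀ X, w X = u X - ψ (T X)) (N : ℕ)
    (hN : ∀ X, T X < N) :
    ∑ j ∈ range N, SS (univ.filter (fun X => T X = j)) u ≤ ∑ X, w X ^ 2 := by
  rw [← Finset.sum_fiberwise_of_maps_to (s := univ) (t := range N) (g := T)
    (fun X _ => Finset.mem_range.2 (hN X))]
  refine Finset.sum_le_sum (fun j _ => ?_)
  refine le_trans (SS_le_sum_sq_sub _ u (ψ j)) (le_of_eq ?_)
  refine Finset.sum_congr rfl (fun X hX => ?_)
  rw [hwu X, (mem_filter.1 hX).2]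

end abs

end Vale.Agent.H54.CT
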