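import Vale.Agent.H54.CT.StarStep

/-!
P328, STAR at an uncapped column: the dual inequality on the solid
`Sig R = {x ∈ ∏ [0, s b] : ∑ x ≤ R}` (paper proof: thread note 1169).

All counting identities come from one shift bijection between the layers
`{x ∈ Lay (R+1) : 1 ≤ x b}` and `{y ∈ Lay R : y b < s b}`.
-/

namespace Vale.Agent.H54.CT

open Finset

section solid

variable {ι : Type*} [Fintype ι] [DecidableEq ι] (s : ι → ℕ)

/-- The box `∏ [0, s b]`. -/
def PP : Finset (ι → ℕ) := Fintype.piFinset (fun b => range (s b + 1))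

theorem mem_PP (x : ι → ℕ) : x ∈ PP s ↔ ∀ b, x b ≤ s b := by
  unfold PP
  simp [Fintype.mem_piFinset]

/-- The layer `∑ x = R` of the box. -/
def Lay (R : ℕ) : Finset (ι → ℕ) := (PP s).filter (fun x => ∑ b, x b = R)

/-- The solid `∑ x ≤ R` of the box. -/
def Sig (R : ℕ) : Finset (ι → ℕ) := (PP s).filter (fun x => ∑ b, x b ≤ R)

theorem mem_Lay (R : ℕ) (x : ι → ℕ) : x ∈ Lay s R ↔ (∀ b, x b ≤ s b) ∧ ∑ b, x b = R := by
  unfold Lay
  rw [mem_filter, mem_PP]

theorem mem_Sig (R : ℕ) (x : ι → ℕ) : x ∈ Sig s R ↔ (∀ b, x b ≤ s b) ∧ ∑ b, x b ≤ R := by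
  unfold Sig
  rw [mem_filter, mem_PP]

theorem sum_update_add (x : ι → ℕ) (b : ι) (v : ℕ) :
    ∑ c, Function.update x b v c + x b = ∑ c, x c + v := by
  rw [Finset.sum_update_of_mem (Finset.mem_univ b),
    Finset.sum_eq_add_sum_sdiff_singleton_of_mem (Finset.mem_univ b) x]
  omega

theorem Sig_succ (R : ℕ) : Sig s (R + 1) = Sig s R ∪ Lay s (R + 1) := by
  ext x
  rw [mem_union, mem_Sig, mem_Sig, mem_Lay]
  constructor
  · rintro ⟨h1, h2⟩
    rcases Nat.lt_or_ge (∑ b, x b) (R + 1) with h | h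
    · exact Or.inl ⟨h1, by omega⟩
    · exact Or.inr ⟨h1, by omega⟩
  · rintro (⟨h1, h2⟩ | ⟨h1, h2⟩)
    · exact ⟨h1, by omega⟩
    · exact ⟨h1, by omega⟩

theorem Sig_Lay_disjoint (R : ℕ) : Disjoint (Sig s R) (Lay s (R + 1)) := by
  rw [Finset.disjoint_left]
  intro x hx hx'
  rw [mem_Sig] at hx
  rw [mem_Lay] at hx'
  omega

theorem sum_Sig_succ (R : ℕ) (G : (ι → ℕ) → ℝ) :
    ∑ x ∈ Sig s (R + 1), G x = ∑ x ∈ Sig s R, G x + ∑ x ∈ Lay s (R + 1), G x := by
  rw [Sig_succ, Finset.sum_union (Sig_Lay_disjoint s R)]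

theorem Sig_zero : Sig s 0 = Lay s 0 := by
  ext x
  rw [mem_Sig, mem_Lay]
  constructor
  · rintro ⟨h1, h2⟩
    exact ⟨h1, by omega⟩
  · rintro ⟨h1, h2⟩
    exact ⟨h1, by omega⟩

omit [DecidableEq ι] in
theorem coord_le_sum (x : ι → ℕ) (b : ι) : x b ≤ ∑ c, x c :=
  Finset.single_le_sum (fun _ _ => Nat.zero_le _) (Finset.mem_univ b)

/-- The shift bijection between layers. -/
theorem layer_shift (b : ι) (R : ℕ) (G : (ι → ℕ) → ℝ) :
    ∑ x ∈ (Lay s (R + 1)).filter (fun x => 1 ≤ x b), G x
      = ∑ y ∈ (Lay s R).filter (fun y => y b < s b), G (Function.update y b (y b + 1)) := by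
  refine Finset.sum_bij' (fun x _ => Function.update x b (x b - 1))
    (fun y _ => Function.update y b (y b + 1)) ?_ ?_ ?_ ?_ ?_
  · intro x hx
    rw [mem_filter, mem_Lay] at hx ⊢
    obtain ⟨⟨h1, h2⟩, h3⟩ := hx
    have hs := sum_update_add x b (x b - 1)
    have hb := h1 b
    refine ⟨⟨fun c => ?_, by omega⟩, ?_⟩
    · by_cases hc : c = b
      · subst hc
        rw [Function.update_self]
        omega
      · rw [Function.update_of_ne hc]
        exact h1 c
    · rw [Function.update_self]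
      omega
  · intro y hy
    rw [mem_filter, mem_Lay] at hy ⊢
    obtain ⟨⟨h1, h2⟩, h3⟩ := hy
    have hs := sum_update_add y b (y b + 1)
    refine ⟨⟨fun c => ?_, by omega⟩, ?_⟩
    · by_cases hc : c = b
      · subst hc
        rw [Function.update_self]
        omega
      · rw [Function.update_of_ne hc]
        exact h1 c
    · rw [Function.update_self]
      omega
  · intro x hx
    rw [mem_filter] at hx
    have h3 := hx.2
    simp only [Function.update_self, Function.update_idem]
    rw [Nat.sub_add_cancel h3, Function.update_eq_self]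
  · intro y _
    simp only [Function.update_self, Function.update_idem]
    rw [Nat.add_sub_cancel, Function.update_eq_self]
  · intro x hx
    rw [mem_filter] at hx
    have h3 := hx.2
    simp only [Function.update_self, Function.update_idem]
    rw [Nat.sub_add_cancel h3, Function.update_eq_self]

/-- The shift identity with a weight depending on the `b`-th coordinate, for a function `g`
that does not depend on the `b`-th coordinate. -/
theorem layer_shift_weight (b : ι) (R : ℕ) (W : ℕ → ℝ) (g : (ι → ℕ) → ℝ)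
    (hg : ∀ x v, g (Function.update x b v) = g x) :
    ∑ x ∈ Lay s (R + 1), W (x b) * g x
      = W 0 * ∑ x ∈ Lay s (R + 1), (if x b = 0 then g x else 0)
        + ∑ y ∈ Lay s R, (if y b < s b then W (y b + 1) * g y else 0) := by
  rw [← Finset.sum_filter_add_sum_filter_not (Lay s (R + 1)) (fun x => 1 ≤ x b)
    (fun x => W (x b) * g x), layer_shift s b R (fun x => W (x b) * g x), add_comm]
  congr 1
  · rw [Finset.mul_sum, Finset.sum_filter]
    refine Finset.sum_congr rfl (fun x _ => ?_)
    by_cases h : 1 ≤ x b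
    · have h' : ¬ x b = 0 := by omega
      simp [h, h']
    · have h' : x b = 0 := by omega
      simp [h']
  · rw [Finset.sum_filter]
    refine Finset.sum_congr rfl (fun y _ => ?_)
    by_cases h : y b < s b
    · rw [if_pos h, if_pos h, Function.update_self, hg]
    · rw [if_neg h, if_neg h]

/-- On the box, the `b`-th coordinate is `< s b` or `= s b`. -/
theorem layer_split_cap (b : ι) (R : ℕ) (g : (ι → ℕ) → ℝ) :
    ∑ y ∈ Lay s R, (if y b < s b then g y else 0)
        + ∑ y ∈ Lay s R, (if y b = s b then g y else 0)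
      = ∑ y ∈ Lay s R, g y := by
  rw [← Finset.sum_add_distrib]
  refine Finset.sum_congr rfl (fun y hy => ?_)
  have := ((mem_Lay s R y).1 hy).1 b
  rcases Nat.lt_or_ge (y b) (s b) with h | h
  · have h' : ¬ y b = s b := by omega
    rw [if_pos h, if_neg h', add_zero]
  · have h' : y b = s b := by omega
    have h'' : ¬ y b < s b := by omega
    rw [if_neg h'', if_pos h', zero_add]

theorem layer_zero_coord (b : ι) (x : ι → ℕ) (hx : x ∈ Lay s 0) : x b = 0 := by
  have h1 := coord_le_sum x b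
  have h2 := ((mem_Lay s 0 x).1 hx).2
  omega

/-- Decomposition step for the points with `b`-th coordinate zero. -/
theorem ad_step (b : ι) (g : (ι → ℕ) → ℝ) (hg : ∀ x v, g (Function.update x b v) = g x)
    (R : ℕ) :
    ∑ x ∈ Lay s (R + 1), (if x b = 0 then g x else 0) + ∑ y ∈ Lay s R, g y
      = ∑ x ∈ Lay s (R + 1), g x + ∑ y ∈ Lay s R, (if y b = s b then g y else 0) := by
  have h1 := layer_shift_weight s b R (fun _ => 1) g hg
  simp only [one_mul] at h1
  have h2 := layer_split_cap s b R g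
  linarith

/-- The points of the solid with `b`-th coordinate zero: one for every point of the top layer
and one for every point of the smaller solid with `b`-th coordinate at the cap. -/
theorem ad_sum (b : ι) (g : (ι → ℕ) → ℝ) (hg : ∀ x v, g (Function.update x b v) = g x)
    (R : ℕ) :
    ∑ x ∈ Sig s (R + 1), (if x b = 0 then g x else 0)
      = ∑ x ∈ Lay s (R + 1), g x + ∑ y ∈ Sig s R, (if y b = s b then g y else 0) := by
  induction R with
  | zero =>
    rw [sum_Sig_succ, Sig_zero]
    have h0 : ∑ x ∈ Lay s 0, (if x b = 0 then g x else 0) = ∑ x ∈ Lay s 0, g x :=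
      Finset.sum_congr rfl (fun x hx => by rw [if_pos (layer_zero_coord s b x hx)])
    have h1 := ad_step s b g hg 0
    rw [h0]
    linarith
  | succ R ih =>
    rw [sum_Sig_succ, ih, sum_Sig_succ s R]
    have h1 := ad_step s b g hg (R + 1)
    linarith

/-- Step of the size-biasing identity. -/
theorem sb_step (b : ι) (g : (ι → ℕ) → ℝ) (hg : ∀ x v, g (Function.update x b v) = g x)
    (R : ℕ) :
    ∑ x ∈ Lay s (R + 1), (x b : ℝ) * g x
        + ((s b : ℝ) + 1) * ∑ y ∈ Lay s R, (if y b = s b then g y else 0)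
      = ∑ y ∈ Lay s R, (y b : ℝ) * g y + ∑ y ∈ Lay s R, g y := by
  have h1 := layer_shift_weight s b R (fun j => (j : ℝ)) g hg
  simp only [Nat.cast_zero, zero_mul, zero_add] at h1
  rw [h1, Finset.mul_sum, ← Finset.sum_add_distrib, ← Finset.sum_add_distrib]
  refine Finset.sum_congr rfl (fun y hy => ?_)
  have := ((mem_Lay s R y).1 hy).1 b
  rcases Nat.lt_or_ge (y b) (s b) with h | h
  · have h' : ¬ y b = s b := by omega
    rw [if_pos h, if_neg h']
    push_cast
    ring
  · have h' : y b = s b := by omega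
    have h'' : ¬ y b < s b := by omega
    rw [if_neg h'', if_pos h', h']
    ring

/-- Capped size-biasing: the sum over the solid of a function that does not depend on the
`b`-th coordinate. -/
theorem size_bias (b : ι) (g : (ι → ℕ) → ℝ) (hg : ∀ x v, g (Function.update x b v) = g x)
    (R : ℕ) :
    ∑ x ∈ Sig s R, g x = ∑ x ∈ Lay s (R + 1), (x b : ℝ) * g x
      + ((s b : ℝ) + 1) * ∑ y ∈ Sig s R, (if y b = s b then g y else 0) := by
  induction R with
  | zero =>
    rw [Sig_zero]
    have h0 : ∑ y ∈ Lay s 0, (y b : ℝ) * g y = 0 :=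
      Finset.sum_eq_zero (fun y hy => by rw [layer_zero_coord s b y hy]; simp)
    have h1 := sb_step s b g hg 0
    linarith
  | succ R ih =>
    rw [sum_Sig_succ, sum_Sig_succ s R, ih]
    have h1 := sb_step s b g hg (R + 1)
    linarith

/-- Shift of a level set of the solid. -/
theorem sig_shift (b : ι) (g : (ι → ℕ) → ℝ) (hg : ∀ x v, g (Function.update x b v) = g x)
    (j : ℕ) (hj : j < s b) (R : ℕ) :
    ∑ x ∈ Sig s (R + 1), (if x b = j + 1 then g x else 0)
      = ∑ y ∈ Sig s R, (if y b = j then g y else 0) := by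
  have hlay : ∀ r : ℕ, ∑ x ∈ Lay s (r + 1), (if x b = j + 1 then g x else 0)
      = ∑ y ∈ Lay s r, (if y b = j then g y else 0) := by
    intro r
    have h1 := layer_shift_weight s b r (fun t => if t = j + 1 then (1 : ℝ) else 0) g hg
    have e0 : (if (0 : ℕ) = j + 1 then (1 : ℝ) else 0) = 0 := by
      rw [if_neg (by omega)]
    rw [e0, zero_mul, zero_add] at h1
    have eL : ∑ x ∈ Lay s (r + 1), (if x b = j + 1 then g x else 0)
        = ∑ x ∈ Lay s (r + 1), (if x b = j + 1 then (1 : ℝ) else 0) * g x :=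
      Finset.sum_congr rfl (fun x _ => by split_ifs <;> simp)
    rw [eL, h1]
    refine Finset.sum_congr rfl (fun y _ => ?_)
    by_cases h : y b = j
    · have h' : y b < s b := by omega
      rw [if_pos h', if_pos (by omega), if_pos h, one_mul]
    · by_cases h' : y b < s b
      · rw [if_pos h', if_neg (by omega), if_neg h, zero_mul]
      · rw [if_neg h', if_neg h]
  induction R with
  | zero =>
    rw [sum_Sig_succ, Sig_zero, hlay 0]
    have h0 : ∑ x ∈ Lay s 0, (if x b = j + 1 then g x else 0) = 0 :=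
      Finset.sum_eq_zero (fun x hx => by
        have := layer_zero_coord s b x hx
        rw [if_neg (by omega)])
    rw [h0, zero_add]
  | succ R ih =>
    rw [sum_Sig_succ, ih, hlay (R + 1), ← sum_Sig_succ]

/-- The `sl_2` trace sum of a layer. -/
noncomputable def aR (R : ℕ) : ℝ :=
  ∑ x ∈ Lay s R, ∑ b, (x b : ℝ) * ((s b : ℝ) + 1 - x b)

theorem aR_succ (R : ℕ) :
    aR s (R + 1) = aR s R + ((∑ b, (s b : ℝ)) - 2 * R) * ((Lay s R).card : ℝ) := by
  have h1 : aR s (R + 1) = ∑ b, ∑ y ∈ Lay s R, ((y b : ℝ) + 1) * ((s b : ℝ) - y b) := by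
    unfold aR
    rw [Finset.sum_comm]
    refine Finset.sum_congr rfl (fun b _ => ?_)
    have h := layer_shift_weight s b R (fun j => (j : ℝ) * ((s b : ℝ) + 1 - j)) (fun _ => 1)
      (fun _ _ => rfl)
    simp only [mul_one, Nat.cast_zero, zero_mul, zero_add] at h
    rw [h]
    refine Finset.sum_congr rfl (fun y hy => ?_)
    have := ((mem_Lay s R y).1 hy).1 b
    rcases Nat.lt_or_ge (y b) (s b) with h' | h'
    · rw [if_pos h']
      push_cast
      ring
    · have h'' : y b = s b := by omega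
      rw [if_neg (by omega), h'']
      ring
  rw [h1, Finset.sum_comm]
  unfold aR
  have h2 : ∀ y ∈ Lay s R, ∑ b, ((y b : ℝ) + 1) * ((s b : ℝ) - y b)
      = ∑ b, (y b : ℝ) * ((s b : ℝ) + 1 - y b) + ((∑ b, (s b : ℝ)) - 2 * R) := by
    intro y hy
    have hsum : ∑ b, (y b : ℝ) = (R : ℝ) := by
      have := ((mem_Lay s R y).1 hy).2
      exact_mod_cast this
    have e : ∀ b, ((y b : ℝ) + 1) * ((s b : ℝ) - y b)
        = (y b : ℝ) * ((s b : ℝ) + 1 - y b) + ((s b : ℝ) - 2 * (y b : ℝ)) := by
      intro b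
      ring
    simp only [e]
    rw [Finset.sum_add_distrib, Finset.sum_sub_distrib, ← Finset.mul_sum, hsum]
  rw [Finset.sum_congr rfl h2, Finset.sum_add_distrib]
  simp only [Finset.sum_const, nsmul_eq_mul]
  ring

theorem card_Sig_succ (R : ℕ) :
    ((Sig s (R + 1)).card : ℝ) = ((Sig s R).card : ℝ) + ((Lay s (R + 1)).card : ℝ) := by
  rw [Sig_succ, Finset.card_union_of_disjoint (Sig_Lay_disjoint s R)]
  push_cast
  ring

theorem aR_bound (R : ℕ) :
    ((∑ b, (s b : ℝ)) - 2 * R - 2) * ((Sig s R).card : ℝ) ≤ aR s (R + 1) := by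
  induction R with
  | zero =>
    rw [aR_succ, Sig_zero]
    have h0 : aR s 0 = 0 := by
      unfold aR
      refine Finset.sum_eq_zero (fun x hx => Finset.sum_eq_zero (fun b _ => ?_))
      rw [layer_zero_coord s b x hx]
      simp
    rw [h0]
    have hl : (0 : ℝ) ≤ ((Lay s 0).card : ℝ) := Nat.cast_nonneg _
    push_cast
    nlinarith
  | succ R ih =>
    rw [aR_succ s (R + 1), card_Sig_succ]
    have hl : (0 : ℝ) ≤ ((Lay s (R + 1)).card : ℝ) := Nat.cast_nonneg _
    have hσ : (0 : ℝ) ≤ ((Sig s R).card : ℝ) := Nat.cast_nonneg _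
    push_cast
    nlinarith

theorem card_mul_SS {α : Type*} (A : Finset α) (g : α → ℝ) :
    (A.card : ℝ) * SS A g = (A.card : ℝ) * ∑ x ∈ A, g x ^ 2 - (∑ x ∈ A, g x) ^ 2 := by
  rw [SS_def]
  by_cases h : (A.card : ℝ) = 0
  · have h0 : A.card = 0 := by exact_mod_cast h
    rw [Finset.card_eq_zero.1 h0]
    simp
  · field_simp

/-- The combinatorial inequality (COMB) of the paper proof. -/
theorem comb (R : ℕ) :
    ((Lay s (R + 1)).card : ℝ) * ∑ b, SS (Lay s (R + 1)) (fun x => (x b : ℝ))
      + ∑ b, ((s b : ℝ) + 1) ^ 2 * (((Sig s R).filter (fun y => y b = s b)).card : ℝ)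
          * (((Lay s (R + 1)).card : ℝ)
            + (((Sig s R).filter (fun y => y b = s b)).card : ℝ))
      ≤ (Fintype.card ι : ℝ) * ((Sig s R).card : ℝ)
          * (((Sig s R).card : ℝ) + ((Lay s (R + 1)).card : ℝ)) := by
  set l : ℝ := ((Lay s (R + 1)).card : ℝ) with hl
  set σ' : ℝ := ((Sig s R).card : ℝ) with hσ
  set ω : ι → ℝ := fun b => (((Sig s R).filter (fun y => y b = s b)).card : ℝ) with hω
  set X : ι → ℝ := fun b => ∑ x ∈ Lay s (R + 1), (x b : ℝ) with hX
  set Y : ι → ℝ := fun b => ∑ x ∈ Lay s (R + 1), (x b : ℝ) ^ 2 with hY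
  have h1 : ∀ b, σ' = X b + ((s b : ℝ) + 1) * ω b := by
    intro b
    have h := size_bias s b (fun _ => 1) (fun _ _ => rfl) R
    simp only [mul_one, Finset.sum_const, nsmul_eq_mul, Finset.sum_boole] at h
    rw [hσ, hX, hω]
    exact h
  have hSS : ∀ b, l * SS (Lay s (R + 1)) (fun x => (x b : ℝ)) = l * Y b - X b ^ 2 :=
    fun b => card_mul_SS _ _
  have hper : ∀ b, σ' * (σ' + l) - (l * SS (Lay s (R + 1)) (fun x => (x b : ℝ)))
      - ((s b : ℝ) + 1) ^ 2 * ω b * (l + ω b)
      = l * (((s b : ℝ) + 1) * X b - Y b) - (s b : ℝ) * σ' * l + 2 * σ' * X b := by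
    intro b
    rw [hSS b, h1 b]
    ring
  have hsumX : ∑ b, X b = ((R : ℝ) + 1) * l := by
    rw [hX, Finset.sum_comm]
    have : ∀ x ∈ Lay s (R + 1), ∑ b, (x b : ℝ) = (R : ℝ) + 1 := by
      intro x hx
      have := ((mem_Lay s (R + 1) x).1 hx).2
      exact_mod_cast this
    rw [Finset.sum_congr rfl this]
    simp only [Finset.sum_const, nsmul_eq_mul]
    rw [hl]
    ring
  have hsumA : ∑ b, (((s b : ℝ) + 1) * X b - Y b) = aR s (R + 1) := by
    unfold aR
    rw [Finset.sum_comm]
    refine Finset.sum_congr rfl (fun b _ => ?_)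
    rw [hX, hY, Finset.mul_sum, ← Finset.sum_sub_distrib]
    exact Finset.sum_congr rfl (fun x _ => by ring)
  have hab := aR_bound s R
  have hl0 : 0 ≤ l := Nat.cast_nonneg _
  have htot : (Fintype.card ι : ℝ) * σ' * (σ' + l)
      - (l * ∑ b, SS (Lay s (R + 1)) (fun x => (x b : ℝ))
        + ∑ b, ((s b : ℝ) + 1) ^ 2 * ω b * (l + ω b))
      = l * (aR s (R + 1) - ((∑ b, (s b : ℝ)) - 2 * R - 2) * σ') := by
    have e : (Fintype.card ι : ℝ) * σ' * (σ' + l) = ∑ _b : ι, σ' * (σ' + l) := by
      simp only [Finset.sum_const, Finset.card_univ, nsmul_eq_mul]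
      ring
    rw [e, Finset.mul_sum, ← Finset.sum_add_distrib, ← Finset.sum_sub_distrib]
    have e2 : ∀ b ∈ (univ : Finset ι), σ' * (σ' + l)
        - (l * SS (Lay s (R + 1)) (fun x => (x b : ℝ))
          + ((s b : ℝ) + 1) ^ 2 * ω b * (l + ω b))
        = l * (((s b : ℝ) + 1) * X b - Y b) - (s b : ℝ) * σ' * l + 2 * σ' * X b := by
      intro b _
      rw [← hper b]
      ring
    rw [Finset.sum_congr rfl e2, Finset.sum_add_distrib, Finset.sum_sub_distrib,
      ← Finset.mul_sum, ← Finset.mul_sum, hsumA, hsumX]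
    have e3 : ∑ b, (s b : ℝ) * σ' * l = (∑ b, (s b : ℝ)) * σ' * l := by
      rw [Finset.sum_mul, Finset.sum_mul]
    rw [e3]
    ring
  have hnn : 0 ≤ l * (aR s (R + 1) - ((∑ b, (s b : ℝ)) - 2 * R - 2) * σ') :=
    mul_nonneg hl0 (by linarith)
  linarith

theorem SS_congr_sums {α β : Type*} (A : Finset α) (B : Finset β) (g : α → ℝ) (h : β → ℝ)
    (h2 : ∑ x ∈ A, g x ^ 2 = ∑ y ∈ B, h y ^ 2) (h1 : ∑ x ∈ A, g x = ∑ y ∈ B, h y)
    (h0 : (A.card : ℝ) = (B.card : ℝ)) : SS A g = SS B h := by
  rw [SS_def, SS_def, h2, h1, h0]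

theorem sum_eq_zero_of_card_zero {α : Type*} (A : Finset α) (g : α → ℝ)
    (h : (A.card : ℝ) = 0) : ∑ x ∈ A, g x = 0 := by
  have h0 : A.card = 0 := by exact_mod_cast h
  rw [Finset.card_eq_zero.1 h0]
  simp

theorem sig_shift_filter (b : ι) (g : (ι → ℕ) → ℝ)
    (hg : ∀ x v, g (Function.update x b v) = g x) (j : ℕ) (hj : j < s b) (R : ℕ) :
    ∑ x ∈ (Sig s (R + 1)).filter (fun x => x b = j + 1), g x
      = ∑ y ∈ (Sig s R).filter (fun y => y b = j), g y := by
  rw [Finset.sum_filter, Finset.sum_filter]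
  exact sig_shift s b g hg j hj R

theorem sig_shift_card (b : ι) (j : ℕ) (hj : j < s b) (R : ℕ) :
    (((Sig s (R + 1)).filter (fun x => x b = j + 1)).card : ℝ)
      = (((Sig s R).filter (fun y => y b = j)).card : ℝ) := by
  have h := sig_shift_filter s b (fun _ => 1) (fun _ _ => rfl) j hj R
  simp only [Finset.sum_const, nsmul_eq_mul, mul_one] at h
  exact h

theorem ad_sum_filter (b : ι) (g : (ι → ℕ) → ℝ)
    (hg : ∀ x v, g (Function.update x b v) = g x) (R : ℕ) :
    ∑ x ∈ (Sig s (R + 1)).filter (fun x => x b = 0), g x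
      = ∑ x ∈ Lay s (R + 1), g x + ∑ y ∈ (Sig s R).filter (fun y => y b = s b), g y := by
  rw [Finset.sum_filter, Finset.sum_filter]
  exact ad_sum s b g hg R

theorem ad_sum_card (b : ι) (R : ℕ) :
    (((Sig s (R + 1)).filter (fun x => x b = 0)).card : ℝ)
      = ((Lay s (R + 1)).card : ℝ) + (((Sig s R).filter (fun y => y b = s b)).card : ℝ) := by
  have h := ad_sum_filter s b (fun _ => 1) (fun _ _ => rfl) R
  simp only [Finset.sum_const, nsmul_eq_mul, mul_one] at h
  exact h

/-- The level sums of squares of one arm, from the solid `Sig R` to `Sig (R+1)`: the new layer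
is glued to the cap level, and all other levels shift. -/
theorem arm_step (b : ι) (g : (ι → ℕ) → ℝ) (hg : ∀ x v, g (Function.update x b v) = g x)
    (R : ℕ) :
    ∑ j ∈ range (s b + 1), SS ((Sig s (R + 1)).filter (fun x => x b = j)) g
      = ∑ j ∈ range (s b + 1), SS ((Sig s R).filter (fun x => x b = j)) g
        + SS (Lay s (R + 1)) g
        + ((Lay s (R + 1)).card : ℝ) * (((Sig s R).filter (fun y => y b = s b)).card : ℝ)
            / (((Lay s (R + 1)).card : ℝ)
              + (((Sig s R).filter (fun y => y b = s b)).card : ℝ))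
          * ((∑ y ∈ (Sig s R).filter (fun y => y b = s b), g y)
                / (((Sig s R).filter (fun y => y b = s b)).card : ℝ)
              - (∑ x ∈ Lay s (R + 1), g x) / ((Lay s (R + 1)).card : ℝ)) ^ 2 := by
  have hg2 : ∀ x v, (fun x => g x ^ 2) (Function.update x b v) = (fun x => g x ^ 2) x := by
    intro x v
    simp only
    rw [hg]
  rw [Finset.sum_range_succ', Finset.sum_range_succ]
  have hshift : ∀ j ∈ range (s b), SS ((Sig s (R + 1)).filter (fun x => x b = j + 1)) g
      = SS ((Sig s R).filter (fun x => x b = j)) g := by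
    intro j hj
    have hj' : j < s b := Finset.mem_range.1 hj
    exact SS_congr_sums _ _ _ _ (sig_shift_filter s b _ hg2 j hj' R)
      (sig_shift_filter s b g hg j hj' R) (sig_shift_card s b j hj' R)
  rw [Finset.sum_congr rfl hshift]
  have e2 := ad_sum_filter s b (fun x => g x ^ 2) hg2 R
  have e1 := ad_sum_filter s b g hg R
  have e0 := ad_sum_card s b R
  rw [SS_def ((Sig s (R + 1)).filter (fun x => x b = 0)), e2, e1, e0, SS_def (Lay s (R + 1)),
    SS_def ((Sig s R).filter (fun y => y b = s b))]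
  rw [ss_union_num _ _ _ _ (Nat.cast_nonneg _) (Nat.cast_nonneg _)
    (sum_eq_zero_of_card_zero _ g) (sum_eq_zero_of_card_zero _ g)]
  ring

/-- The dual star inequality on the solid: for arm functions `u b` that do not depend on the
`b`-th coordinate, the sum of squares about the mean of `∑ b, u b` over the solid is at most
`card ι` times the sum over the arms `b` and the levels `x b = j` of the sums of squares of
`u b` about its level means. -/
theorem solid_dual (u : ι → (ι → ℕ) → ℝ)
    (hu : ∀ b x v, u b (Function.update x b v) = u b x) (R : ℕ) :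
    SS (Sig s R) (fun x => ∑ b, u b x)
      ≤ (Fintype.card ι : ℝ) * ∑ b, ∑ j ∈ range (s b + 1),
          SS ((Sig s R).filter (fun x => x b = j)) (u b) := by
  have hRHSnn : ∀ R : ℕ, 0 ≤ (Fintype.card ι : ℝ) * ∑ b, ∑ j ∈ range (s b + 1),
      SS ((Sig s R).filter (fun x => x b = j)) (u b) := fun R =>
    mul_nonneg (Nat.cast_nonneg _)
      (Finset.sum_nonneg (fun b _ => Finset.sum_nonneg (fun j _ => SS_nonneg _ _)))
  rcases isEmpty_or_nonempty ι with hι | hι
  · have h0 : SS (Sig s R) (fun x => ∑ b, u b x) = 0 :=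
      BB_const_left _ _ _ 0 (fun x _ => by simp)
    rw [h0]
    exact hRHSnn R
  have hk : 0 < Fintype.card ι := Fintype.card_pos
  induction R with
  | zero =>
    have h0 : SS (Sig s 0) (fun x => ∑ b, u b x) = 0 := by
      refine BB_const_left _ _ _ (∑ b, u b (fun _ => 0)) (fun x hx => ?_)
      rw [Sig_zero] at hx
      have hx0 : x = fun _ => 0 := funext (fun b => layer_zero_coord s b x hx)
      rw [hx0]
    rw [h0]
    exact hRHSnn 0
  | succ R ih =>
    set L := Lay s (R + 1) with hL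
    set l : ℝ := (L.card : ℝ) with hl
    set σ' : ℝ := ((Sig s R).card : ℝ) with hσ'
    set ω : ι → ℝ := fun b => (((Sig s R).filter (fun y => y b = s b)).card : ℝ) with hω
    set τ : ι → ℝ := fun b => ∑ y ∈ (Sig s R).filter (fun y => y b = s b), u b y with hτ
    have hLHS : SS (Sig s (R + 1)) (fun x => ∑ b, u b x)
        = SS (Sig s R) (fun x => ∑ b, u b x) + SS L (fun x => ∑ b, u b x)
          + l * σ' / (σ' + l)
            * ((∑ x ∈ L, ∑ b, u b x) / l - (∑ x ∈ Sig s R, ∑ b, u b x) / σ') ^ 2 := by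
      rw [Sig_succ, SS_union _ _ (Sig_Lay_disjoint s R)]
      ring
    have harm : ∀ b, ∑ j ∈ range (s b + 1), SS ((Sig s (R + 1)).filter (fun x => x b = j)) (u b)
        = ∑ j ∈ range (s b + 1), SS ((Sig s R).filter (fun x => x b = j)) (u b)
          + SS L (u b) + l * ω b / (l + ω b) * (τ b / ω b - (∑ x ∈ L, u b x) / l) ^ 2 :=
      fun b => arm_step s b (u b) (hu b) R
    have hσpos : 0 < σ' := by
      have hmem : (fun _ => 0 : ι → ℕ) ∈ Sig s R := by
        rw [mem_Sig]
        exact ⟨fun b => Nat.zero_le _, by simp⟩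
      have : 0 < (Sig s R).card := Finset.card_pos.2 ⟨_, hmem⟩
      rw [hσ']
      exact_mod_cast this
    have h1 : ∀ b, σ' = ∑ x ∈ L, (x b : ℝ) + ((s b : ℝ) + 1) * ω b := by
      intro b
      have h := size_bias s b (fun _ => 1) (fun _ _ => rfl) R
      simp only [mul_one, Finset.sum_const, nsmul_eq_mul, Finset.sum_boole] at h
      exact h
    have h2 : ∑ x ∈ Sig s R, ∑ b, u b x
        = ∑ b, (∑ x ∈ L, (x b : ℝ) * u b x + ((s b : ℝ) + 1) * τ b) := by
      rw [Finset.sum_comm]
      refine Finset.sum_congr rfl (fun b _ => ?_)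
      rw [size_bias s b (u b) (hu b) R, hτ]
      simp only
      rw [Finset.sum_filter]
    have h3 : ∀ x ∈ L, ∑ b, (x b : ℝ) = (R : ℝ) + 1 := by
      intro x hx
      have := ((mem_Lay s (R + 1) x).1 hx).2
      exact_mod_cast this
    have hstep := abstract_step L u (fun b x => (x b : ℝ)) σ' (∑ x ∈ Sig s R, ∑ b, u b x)
      ((R : ℝ) + 1) ω τ (fun b => (s b : ℝ) + 1) hk hσpos (fun b => Nat.cast_nonneg _)
      (fun b hb => sum_eq_zero_of_card_zero _ _ hb) h1 h2 h3 (comb s R)
    have hpol := BB_polar L u u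
    have hpol' : SS L (fun x => ∑ b, u b x) = (Fintype.card ι : ℝ) * ∑ b, SS L (u b)
        - (1 / 2) * ∑ b, ∑ c, SS L (fun x => u b x - u c x) := by
      simp only [SS]
      linarith
    rw [hLHS, Finset.sum_congr rfl (fun b _ => harm b), Finset.sum_add_distrib,
      Finset.sum_add_distrib, mul_add, mul_add, hpol']
    linarith

end solid

end Vale.Agent.H54.CT
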