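import Vale.Agent.H54.CT.SSAlg

/-!
P328, STAR at an uncapped column: the abstract inductive step of the dual inequality
(Cauchy-Schwarz part; paper proof: thread note 1169, steps (a)-(d)).
-/

namespace Vale.Agent.H54.CT

open Finset

/-- The identity `[p+q]^2/[a+b] = p^2/a + q^2/b - [ab/[a+b]] [p/a - q/b]^2` with the conventions of division
by zero, when `a = 0` forces `p = 0` and `b = 0` forces `q = 0`. -/
theorem ss_union_num (a b p q : ℝ) (ha : 0 ≤ a) (hb : 0 ≤ b) (hp : a = 0 → p = 0)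
    (hq : b = 0 → q = 0) :
    (p + q) ^ 2 / (a + b) = p ^ 2 / a + q ^ 2 / b - a * b / (a + b) * (p / a - q / b) ^ 2 := by
  by_cases ha0 : a = 0
  · have hp0 := hp ha0
    subst ha0
    subst hp0
    simp
  · by_cases hb0 : b = 0
    · have hq0 := hq hb0
      subst hb0
      subst hq0
      simp
    · have hab : a + b ≠ 0 := by
        have h1 : 0 < a := lt_of_le_of_ne ha (Ne.symm ha0)
        have h2 : 0 < b := lt_of_le_of_ne hb (Ne.symm hb0)
        positivity
      field_simp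
      ring

/-- Sum of squares about the mean of a disjoint union. -/
theorem SS_union {α : Type*} [DecidableEq α] (A B : Finset α) (hAB : Disjoint A B)
    (g : α → ℝ) :
    SS (A ∪ B) g = SS A g + SS B g
      + (A.card : ℝ) * (B.card : ℝ) / ((A.card : ℝ) + (B.card : ℝ))
        * ((∑ x ∈ A, g x) / (A.card : ℝ) - (∑ x ∈ B, g x) / (B.card : ℝ)) ^ 2 := by
  rw [SS_def, SS_def, SS_def, Finset.sum_union hAB, Finset.sum_union hAB,
    Finset.card_union_of_disjoint hAB]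
  push_cast
  have hA : (A.card : ℝ) = 0 → ∑ x ∈ A, g x = 0 := by
    intro h
    have h0 : A.card = 0 := by exact_mod_cast h
    rw [Finset.card_eq_zero.1 h0]
    simp
  have hB : (B.card : ℝ) = 0 → ∑ x ∈ B, g x = 0 := by
    intro h
    have h0 : B.card = 0 := by exact_mod_cast h
    rw [Finset.card_eq_zero.1 h0]
    simp
  rw [ss_union_num (A.card : ℝ) (B.card : ℝ) (∑ x ∈ A, g x) (∑ x ∈ B, g x)
    (Nat.cast_nonneg _) (Nat.cast_nonneg _) hA hB]
  ring

/-- Two-term Cauchy-Schwarz. -/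
theorem cs_two (P Q A₁ B₁ A₂ B₂ : ℝ) (hA₁ : 0 ≤ A₁) (hB₁ : 0 ≤ B₁) (hA₂ : 0 ≤ A₂)
    (hB₂ : 0 ≤ B₂) (hP : P ^ 2 ≤ A₁ * B₁) (hQ : Q ^ 2 ≤ A₂ * B₂) :
    (P + Q) ^ 2 ≤ (A₁ + A₂) * (B₁ + B₂) := by
  have h1 : 2 * (P * Q) ≤ A₁ * B₂ + A₂ * B₁ := by
    by_contra hcon
    have hcon' : A₁ * B₂ + A₂ * B₁ < 2 * (P * Q) := lt_of_not_ge hcon
    have hnn : 0 ≤ A₁ * B₂ + A₂ * B₁ := by positivity
    have hsq : (A₁ * B₂ + A₂ * B₁) ^ 2 < (2 * (P * Q)) ^ 2 :=
      pow_lt_pow_left₀ hcon' hnn (by norm_num)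
    have hprod : P ^ 2 * Q ^ 2 ≤ (A₁ * B₁) * (A₂ * B₂) :=
      mul_le_mul hP hQ (sq_nonneg _) (by positivity)
    nlinarith [sq_nonneg (A₁ * B₂ - A₂ * B₁)]
  nlinarith

/-- Weighted Cauchy-Schwarz over a finite index set. -/
theorem cs_sum {κ : Type*} (I : Finset κ) (p al be : κ → ℝ) (hal : ∀ i ∈ I, 0 ≤ al i)
    (hbe : ∀ i ∈ I, 0 ≤ be i) (hp : ∀ i ∈ I, p i ^ 2 ≤ al i * be i) :
    (∑ i ∈ I, p i) ^ 2 ≤ (∑ i ∈ I, al i) * (∑ i ∈ I, be i) := by
  classical
  induction I using Finset.induction_on with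
  | empty => simp
  | insert i I hi ih =>
    rw [Finset.sum_insert hi, Finset.sum_insert hi, Finset.sum_insert hi]
    have hI1 : ∀ j ∈ I, 0 ≤ al j := fun j hj => hal j (Finset.mem_insert_of_mem hj)
    have hI2 : ∀ j ∈ I, 0 ≤ be j := fun j hj => hbe j (Finset.mem_insert_of_mem hj)
    have hI3 : ∀ j ∈ I, p j ^ 2 ≤ al j * be j := fun j hj => hp j (Finset.mem_insert_of_mem hj)
    exact cs_two _ _ _ _ _ _ (hal i (Finset.mem_insert_self i I))
      (hbe i (Finset.mem_insert_self i I)) (Finset.sum_nonneg hI1) (Finset.sum_nonneg hI2)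
      (hp i (Finset.mem_insert_self i I)) (ih hI1 hI2 hI3)

/-- The abstract inductive step.  `L` is the new layer, `u b` the arm functions, `xc b` the
coordinates (with constant sum on `L`), `σ'` the size of the old solid, `M'` the sum of
`∑ b, u b` over it, `ω b` and `τ b` the size of the inner set of arm `b` and the sum of `u b`
over it, `cb b = s b + 1`. -/
theorem abstract_step {α ι : Type*} [Fintype ι] (L : Finset α) (u xc : ι → α → ℝ)
    (σ' M' c : ℝ) (ω τ cb : ι → ℝ)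
    (hk : 0 < Fintype.card ι) (hσ : 0 < σ') (hω : ∀ b, 0 ≤ ω b) (hτ : ∀ b, ω b = 0 → τ b = 0)
    (h1 : ∀ b, σ' = ∑ x ∈ L, xc b x + cb b * ω b)
    (h2 : M' = ∑ b, (∑ x ∈ L, xc b x * u b x + cb b * τ b))
    (h3 : ∀ x ∈ L, ∑ b, xc b x = c)
    (hcomb : (L.card : ℝ) * ∑ b, SS L (xc b) + ∑ b, cb b ^ 2 * ω b * ((L.card : ℝ) + ω b)
        ≤ (Fintype.card ι : ℝ) * σ' * (σ' + (L.card : ℝ))) :
    (L.card : ℝ) * σ' / (σ' + (L.card : ℝ))
        * ((∑ x ∈ L, ∑ b, u b x) / (L.card : ℝ) - M' / σ') ^ 2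
      ≤ (1 / 2) * ∑ b, ∑ c, SS L (fun x => u b x - u c x)
        + (Fintype.card ι : ℝ) * ∑ b, (L.card : ℝ) * ω b / ((L.card : ℝ) + ω b)
            * (τ b / ω b - (∑ x ∈ L, u b x) / (L.card : ℝ)) ^ 2 := by
  classical
  set l : ℝ := (L.card : ℝ) with hl
  set k : ℝ := (Fintype.card ι : ℝ) with hkdef
  have hk0 : 0 < k := by
    rw [hkdef]
    exact_mod_cast hk
  have hl0 : 0 ≤ l := Nat.cast_nonneg _
  -- nonnegativity of the right side
  have hB1 : 0 ≤ (1 / 2) * ∑ b, ∑ c, SS L (fun x => u b x - u c x) := by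
    have : 0 ≤ ∑ b, ∑ c, SS L (fun x => u b x - u c x) :=
      Finset.sum_nonneg (fun b _ => Finset.sum_nonneg (fun c _ => SS_nonneg _ _))
    linarith
  have hB2term : ∀ b, 0 ≤ l * ω b / (l + ω b)
      * (τ b / ω b - (∑ x ∈ L, u b x) / l) ^ 2 := by
    intro b
    have h1' : 0 ≤ l * ω b / (l + ω b) :=
      div_nonneg (mul_nonneg hl0 (hω b)) (add_nonneg hl0 (hω b))
    exact mul_nonneg h1' (sq_nonneg _)
  have hB2 : 0 ≤ k * ∑ b, l * ω b / (l + ω b)
      * (τ b / ω b - (∑ x ∈ L, u b x) / l) ^ 2 :=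
    mul_nonneg hk0.le (Finset.sum_nonneg (fun b _ => hB2term b))
  rcases eq_or_lt_of_le hl0 with hl00 | hlpos
  · -- empty layer
    have e : l * σ' / (σ' + l) * ((∑ x ∈ L, ∑ b, u b x) / l - M' / σ') ^ 2 = 0 := by
      rw [← hl00]
      simp
    rw [e]
    linarith
  -- the deviation `X`
  set X : ℝ := M' - σ' * ((∑ x ∈ L, ∑ b, u b x) / l) with hX
  set t : ι → ℝ := fun b => τ b / ω b - (∑ x ∈ L, u b x) / l with ht
  set P : ℝ := (1 / (2 * k)) * ∑ b, ∑ c, BB L (fun x => xc b x - xc c x)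
    (fun x => u b x - u c x) with hP
  set Q : ℝ := ∑ b, cb b * ω b * t b with hQ
  have hconst : BB L (fun x => ∑ b, xc b x) (fun x => ∑ b, u b x) = 0 :=
    BB_const_left L _ _ c h3
  have hconst' : BB L (fun x => ∑ b, xc b x) (fun x => ∑ b, xc b x) = 0 :=
    BB_const_left L _ _ c h3
  have hPeq : P = ∑ b, BB L (xc b) (u b) := by
    rw [hP, BB_polar L xc u, hconst]
    field_simp
    ring
  have hXeq : X = P + Q := by
    rw [hPeq, hQ, ← Finset.sum_add_distrib, hX, h2, Finset.sum_comm (s := L),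
      Finset.sum_div, Finset.mul_sum, ← Finset.sum_sub_distrib]
    refine Finset.sum_congr rfl (fun b _ => ?_)
    have hb := h1 b
    unfold BB
    rw [ht]
    by_cases hω0 : ω b = 0
    · have hτ0 := hτ b hω0
      rw [hω0] at hb
      rw [hω0, hτ0, hb]
      simp only [mul_zero, add_zero, zero_mul]
      rw [← hl]
      ring
    · rw [hb, ← hl]
      field_simp
      ring
  -- the two Cauchy-Schwarz bounds
  set A₁ : ℝ := (1 / k) * ∑ b, SS L (xc b) with hA₁
  set B₁ : ℝ := (1 / 2) * ∑ b, ∑ c, SS L (fun x => u b x - u c x) with hB₁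
  set A₂ : ℝ := ∑ b, cb b ^ 2 * ω b * (l + ω b) / (k * l) with hA₂
  set B₂ : ℝ := k * ∑ b, l * ω b / (l + ω b) * t b ^ 2 with hB₂
  have hA₁nn : 0 ≤ A₁ :=
    mul_nonneg (by positivity) (Finset.sum_nonneg (fun b _ => SS_nonneg _ _))
  have hA₂nn : 0 ≤ A₂ := by
    refine Finset.sum_nonneg (fun b _ => ?_)
    have := hω b
    positivity
  have hPsq : P ^ 2 ≤ A₁ * B₁ := by
    have hpol : ∑ b, ∑ c, SS L (fun x => xc b x - xc c x)
        = 2 * k * ∑ b, SS L (xc b) := by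
      have := BB_polar L xc xc
      rw [hconst'] at this
      simp only [SS]
      rw [this]
      ring
    have hA1' : A₁ = ∑ p : ι × ι, SS L (fun x => xc p.1 x - xc p.2 x) / (2 * k ^ 2) := by
      rw [Fintype.sum_prod_type, hA₁]
      simp only [← Finset.sum_div]
      rw [hpol]
      field_simp
    have hB1' : B₁ = ∑ p : ι × ι, SS L (fun x => u p.1 x - u p.2 x) / 2 := by
      rw [Fintype.sum_prod_type, hB₁]
      simp only [← Finset.sum_div]
      ring
    have hP' : P = ∑ p : ι × ι, BB L (fun x => xc p.1 x - xc p.2 x)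
        (fun x => u p.1 x - u p.2 x) / (2 * k) := by
      rw [Fintype.sum_prod_type, hP]
      simp only [← Finset.sum_div]
      ring
    rw [hA1', hB1', hP']
    refine cs_sum _ _ _ _ (fun p _ => ?_) (fun p _ => ?_) (fun p _ => ?_)
    · exact div_nonneg (SS_nonneg _ _) (by positivity)
    · exact div_nonneg (SS_nonneg _ _) (by norm_num)
    · have hcs := BB_sq_le L (fun x => xc p.1 x - xc p.2 x) (fun x => u p.1 x - u p.2 x)
      have e1 : (BB L (fun x => xc p.1 x - xc p.2 x) (fun x => u p.1 x - u p.2 x)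
          / (2 * k)) ^ 2
          = BB L (fun x => xc p.1 x - xc p.2 x) (fun x => u p.1 x - u p.2 x) ^ 2
            / (4 * k ^ 2) := by
        field_simp
        ring
      have e2 : SS L (fun x => xc p.1 x - xc p.2 x) / (2 * k ^ 2)
          * (SS L (fun x => u p.1 x - u p.2 x) / 2)
          = SS L (fun x => xc p.1 x - xc p.2 x) * SS L (fun x => u p.1 x - u p.2 x)
            / (4 * k ^ 2) := by
        field_simp
        ring
      rw [e1, e2]
      exact div_le_div_of_nonneg_right hcs (by positivity)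
  have hQsq : Q ^ 2 ≤ A₂ * B₂ := by
    have hB2' : B₂ = ∑ b, k * (l * ω b / (l + ω b) * t b ^ 2) := by
      rw [hB₂, Finset.mul_sum]
    rw [hQ, hA₂, hB2']
    refine cs_sum _ _ _ _ (fun b _ => ?_) (fun b _ => ?_) (fun b _ => ?_)
    · have := hω b
      positivity
    · have := hω b
      have h1' : 0 ≤ l * ω b / (l + ω b) := by positivity
      exact mul_nonneg hk0.le (mul_nonneg h1' (sq_nonneg _))
    · have hpos : 0 < l + ω b := by
        have := hω b
        linarith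
      refine le_of_eq ?_
      field_simp
  have hXsq : X ^ 2 ≤ (A₁ + A₂) * (B₁ + B₂) := by
    rw [hXeq]
    have hB₁nn : 0 ≤ B₁ := hB1
    have hB₂nn : 0 ≤ B₂ := hB2
    exact cs_two P Q A₁ B₁ A₂ B₂ hA₁nn hB₁nn hA₂nn hB₂nn hPsq hQsq
  have hAsum : A₁ + A₂ ≤ σ' * (σ' + l) / l := by
    have e : A₁ + A₂ = (l * ∑ b, SS L (xc b) + ∑ b, cb b ^ 2 * ω b * (l + ω b)) / (k * l) := by
      rw [hA₁, hA₂, ← Finset.sum_div]
      field_simp
    rw [e, div_le_div_iff₀ (by positivity) hlpos]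
    have := mul_le_mul_of_nonneg_right hcomb hlpos.le
    nlinarith
  have hRnn : 0 ≤ B₁ + B₂ := add_nonneg hB1 hB2
  have hfin : X ^ 2 ≤ σ' * (σ' + l) / l * (B₁ + B₂) :=
    le_trans hXsq (mul_le_mul_of_nonneg_right hAsum hRnn)
  have hLHS : l * σ' / (σ' + l) * ((∑ x ∈ L, ∑ b, u b x) / l - M' / σ') ^ 2
      = X ^ 2 * (l / (σ' * (σ' + l))) := by
    rw [hX]
    have h1' : σ' + l ≠ 0 := by positivity
    field_simp
    ring
  rw [hLHS]
  have hpos : 0 < l / (σ' * (σ' + l)) := by positivity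
  calc X ^ 2 * (l / (σ' * (σ' + l)))
      ≤ σ' * (σ' + l) / l * (B₁ + B₂) * (l / (σ' * (σ' + l))) :=
        mul_le_mul_of_nonneg_right hfin hpos.le
    _ = B₁ + B₂ := by
        have h1' : σ' + l ≠ 0 := by positivity
        field_simp

end Vale.Agent.H54.CT
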