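import Vale.Agent.H54.CT.StarSolid
import Vale.Agent.H54.CT.StarLift
import Vale.Agent.H91.CT.BoxLift

/-!
P328: STAR at an uncapped column (paper proof: thread note 1169).

In a box-slice class `Box n s ρ` (first rows of two-rowed tables; definitions of
`Vale.Agent.H14.CT`) let `a` be a column with `ρ ≤ s a` (the cap of `a` is never active).  Then
for every `f` of zero sum the penalties of the pairs `a, b`, `b ≠ a`, are at most the block
Dirichlet forms of these pairs:
`∑_{b ≠ a} penB a b f ≤ ∑_{b ≠ a} QB a b f`, for arbitrary caps `s b` of the arms.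

Proof.  The class is the solid `{x ∈ ∏_{b ≠ a} [0, s b] : ∑ x ≤ ρ}`; the lines of the pair
`a, b` are the lines in direction `b`, the level may be taken to be the coordinate `x b`.
The optimal lift `w b` of the pair `a, b` is `u b - ψ b (x b)` with `u b` constant on the
lines; `|w b|^2 = <f, u b>`, so `[∑ |w b|^2]^2 = <f, ∑ u b>^2 ≤ |f|^2 SS[∑ u b]`, and the dual
inequality `solid_dual` bounds `SS[∑ u b]` by `[n - 1] ∑ |w b|^2`.
-/

namespace Vale.Agent.H54.CT

open Finset Vale.Agent.H90 Vale.Agent.H91.CT Vale.Agent.H14.CT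

section box

variable {n : ℕ} {s : Fin n → ℕ} {ρ : ℕ}

theorem pair_le (a b : Fin n) (hab : a ≠ b) (z : Box n s ρ) : z.1 a + z.1 b ≤ ρ := by
  have h := z.2.2
  have h' : ∑ k ∈ ({a, b} : Finset (Fin n)), z.1 k ≤ ∑ k, z.1 k :=
    Finset.sum_le_sum_of_subset (Finset.subset_univ _)
  rw [Finset.sum_pair hab] at h'
  omega

/-- At an uncapped column `a`, the coordinate `z b` is the depth minus the level. -/
theorem arm_level (a b : Fin n) (hab : a ≠ b) (ha : ρ ≤ s a) (z : Box n s ρ) :
    z.1 b + levelB a b z = depthB a b z := by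
  have h1 := pair_le a b hab z
  have h2 := z.2.1 a
  have h3 := z.2.1 b
  unfold levelB depthB
  omega

/-- At an uncapped column `a`, the coordinate `z b` runs through `0, …, depth` exactly once on
every line of the pair `a, b`. -/
theorem arm_class_level (a b : Fin n) (hab : a ≠ b) (ha : ρ ≤ s a) (z : Box n s ρ)
    (G : ℕ → ℝ) :
    ∑ z' ∈ univ.filter (fun z' => LineRel a b z z'), G (z'.1 b)
      = ∑ t ∈ range (depthB a b z + 1), G t := by
  have h := box_class_level a b hab z (fun t => G (depthB a b z - t))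
  rw [← Finset.sum_range_reflect G (depthB a b z + 1)]
  simp only [Nat.add_sub_cancel]
  rw [← h]
  refine Finset.sum_congr rfl (fun z' hz' => ?_)
  have hl : LineRel a b z z' := (mem_filter.1 hz').2
  have h1 := arm_level a b hab ha z'
  have h2 := depthB_const a b hab z z' hl
  congr 1
  omega

/-- The vector of the arm coordinates of a point of the class. -/
def armVec (a : Fin n) (z : Box n s ρ) : {b : Fin n // b ≠ a} → ℕ := fun b => z.1 b.1

theorem sum_arms (a : Fin n) (z : Box n s ρ) :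
    z.1 a + ∑ b : {b : Fin n // b ≠ a}, armVec a z b = ρ := by
  have h := Fintype.sum_eq_add_sum_subtype_ne z.1 a
  rw [z.2.2] at h
  exact h.symm

theorem armVec_mem (a : Fin n) (z : Box n s ρ) :
    armVec a z ∈ Sig (fun b : {b : Fin n // b ≠ a} => s b.1) ρ := by
  rw [mem_Sig]
  refine ⟨fun b => z.2.1 b.1, ?_⟩
  have := sum_arms a z
  omega

theorem armVec_inj (a : Fin n) (z z' : Box n s ρ) (h : armVec a z = armVec a z') : z = z' := by
  apply Subtype.ext
  funext k
  by_cases hk : k = a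
  · have h1 := sum_arms a z
    have h2 := sum_arms a z'
    rw [h] at h1
    rw [hk]
    omega
  · exact congrFun h ⟨k, hk⟩

theorem armVec_surj (a : Fin n) (ha : ρ ≤ s a) (x : {b : Fin n // b ≠ a} → ℕ)
    (hx : x ∈ Sig (fun b : {b : Fin n // b ≠ a} => s b.1) ρ) :
    ∃ z : Box n s ρ, armVec a z = x := by
  rw [mem_Sig] at hx
  obtain ⟨hx1, hx2⟩ := hx
  set y : Fin n → ℕ := fun k => if h : k = a then ρ - ∑ b, x b else x ⟨k, h⟩ with hy
  have hya : y a = ρ - ∑ b, x b := by
    rw [hy]
    simp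
  have hyb : ∀ b : {b : Fin n // b ≠ a}, y b.1 = x b := by
    intro b
    rw [hy]
    simp only
    rw [dif_neg b.2]
  have hx2' : ∑ b, x b ≤ ρ := hx2
  have hsum : ∑ k, y k = ρ := by
    have e : ∑ b : {b : Fin n // b ≠ a}, y b.1 = ∑ b, x b :=
      Finset.sum_congr rfl (fun b _ => hyb b)
    rw [Fintype.sum_eq_add_sum_subtype_ne y a, hya, e]
    omega
  have hle : ∀ k, y k ≤ s k := by
    intro k
    by_cases hk : k = a
    · rw [hk, hya]
      omega
    · have := hyb ⟨k, hk⟩
      have h2 := hx1 ⟨k, hk⟩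
      simp only at this h2
      omega
  exact ⟨⟨y, hle, hsum⟩, funext (fun b => hyb b)⟩

/-- Summation over the solid is summation over the class. -/
theorem sum_armVec (a : Fin n) (ha : ρ ≤ s a) (p : ({b : Fin n // b ≠ a} → ℕ) → Prop)
    [DecidablePred p] (G : ({b : Fin n // b ≠ a} → ℕ) → ℝ) :
    ∑ x ∈ (Sig (fun b : {b : Fin n // b ≠ a} => s b.1) ρ).filter p, G x
      = ∑ z ∈ univ.filter (fun z : Box n s ρ => p (armVec a z)), G (armVec a z) := by
  symm
  refine Finset.sum_bij (fun z _ => armVec a z) ?_ ?_ ?_ ?_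
  · intro z hz
    exact mem_filter.2 ⟨armVec_mem a z, (mem_filter.1 hz).2⟩
  · intro z _ z' _ h
    exact armVec_inj a z z' h
  · intro x hx
    obtain ⟨z, hz⟩ := armVec_surj a ha x (mem_filter.1 hx).1
    refine ⟨z, ?_, hz⟩
    rw [mem_filter]
    refine ⟨mem_univ z, ?_⟩
    rw [hz]
    exact (mem_filter.1 hx).2
  · intro z _
    rfl

theorem SS_armVec (a : Fin n) (ha : ρ ≤ s a) (p : ({b : Fin n // b ≠ a} → ℕ) → Prop)
    [DecidablePred p] (G : ({b : Fin n // b ≠ a} → ℕ) → ℝ) :
    SS ((Sig (fun b : {b : Fin n // b ≠ a} => s b.1) ρ).filter p) G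
      = SS (univ.filter (fun z : Box n s ρ => p (armVec a z))) (fun z => G (armVec a z)) := by
  refine SS_congr_sums _ _ _ _ (sum_armVec a ha p (fun x => G x ^ 2)) (sum_armVec a ha p G) ?_
  have h := sum_armVec (s := s) (ρ := ρ) a ha p (fun _ => (1 : ℝ))
  simp only [Finset.sum_const, nsmul_eq_mul, mul_one] at h
  exact h

open Classical in
/-- Extension of a function on the class that is constant on the lines of the pair `a, b` to
a function of the arm coordinates other than `b`. -/
noncomputable def armExt (a : Fin n) (b : {b : Fin n // b ≠ a}) (u : Box n s ρ → ℝ)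
    (x : {b : Fin n // b ≠ a} → ℕ) : ℝ :=
  if h : ∃ z : Box n s ρ, ∀ c : {b : Fin n // b ≠ a}, c ≠ b → z.1 c.1 = x c
  then u (Classical.choose h) else 0

theorem armExt_spec (a : Fin n) (b : {b : Fin n // b ≠ a}) (u : Box n s ρ → ℝ)
    (hu : ∀ z z', LineRel a b.1 z z' → u z = u z') (z : Box n s ρ)
    (x : {b : Fin n // b ≠ a} → ℕ) (hx : ∀ c : {b : Fin n // b ≠ a}, c ≠ b → z.1 c.1 = x c) :
    armExt a b u x = u z := by
  have h : ∃ z : Box n s ρ, ∀ c : {b : Fin n // b ≠ a}, c ≠ b → z.1 c.1 = x c := ⟨z, hx⟩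
  unfold armExt
  rw [dif_pos h]
  apply hu
  intro k hka hkb
  have hc : (⟨k, hka⟩ : {b : Fin n // b ≠ a}) ≠ b := fun hc => hkb (congrArg Subtype.val hc)
  have h1 := Classical.choose_spec h ⟨k, hka⟩ hc
  have h2 := hx ⟨k, hka⟩ hc
  simp only at h1 h2
  rw [h1, h2]

theorem sum_arms_ite (a : Fin n) (g : Fin n → ℝ) :
    ∑ b : Fin n, (if b ≠ a then g b else 0) = ∑ b : {b : Fin n // b ≠ a}, g b.1 := by
  rw [← Finset.sum_filter]
  exact Finset.sum_subtype (univ.filter (fun b => b ≠ a)) (fun x => by simp) g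

/-- **STAR at an uncapped column.**  In the class `Box n s ρ`, if `ρ ≤ s a` then for every `f`
of zero sum the penalties of the pairs `a, b`, `b ≠ a`, sum to at most the sum of the block
Dirichlet forms of these pairs (arbitrary caps `s b` of the arms). -/
theorem star_uncapped (s : Fin n → ℕ) (ρ : ℕ) (a : Fin n) (ha : ρ ≤ s a)
    (f : Box n s ρ → ℝ) (hf : ∑ z, f z = 0) :
    ∑ b : Fin n, (if b ≠ a then penB a b f else 0)
      ≤ ∑ b : Fin n, (if b ≠ a then QB a b f else 0) := by
  classical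
  have hab : ∀ b : {b : Fin n // b ≠ a}, a ≠ b.1 := fun b h => b.2 h.symm
  -- the optimal lifts of the arms
  have key : ∀ b : {b : Fin n // b ≠ a}, ∃ (w u : Box n s ρ → ℝ) (ψ : ℕ → ℝ),
      (∀ t : ℕ, ∑ z ∈ univ.filter (fun z : Box n s ρ => z.1 b.1 = t), w z = 0) ∧
      avgRel (LineRel a b.1) w = avgRel (LineRel a b.1) f ∧
      (∀ z z', LineRel a b.1 z z' → u z = u z') ∧ (∀ z, w z = u z - ψ (z.1 b.1)) := by
    intro b
    exact lift_struct (LineRel a b.1) (fun z : Box n s ρ => z.1 b.1) (depthB a b.1)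
      (lineRel_equiv a b.1) (depthB_const a b.1 (hab b)) (arm_class_level a b.1 (hab b) ha)
      (min (s a) (s b.1)) (fun z => depthB_le a b.1 z) f hf
  choose w u ψ hw hwf hu hwu using key
  have hnorm : ∀ b, ∑ z, w b z ^ 2 = ∑ z, f z * u b z := fun b =>
    lift_norm (LineRel a b.1) (fun z : Box n s ρ => z.1 b.1) (lineRel_equiv a b.1) f (w b) (u b)
      (ψ b) (hw b) (hwf b) (hu b) (hwu b)
  have hlev : ∀ b : {b : Fin n // b ≠ a}, ∑ j ∈ range (s b.1 + 1),
      SS (univ.filter (fun z : Box n s ρ => z.1 b.1 = j)) (u b) ≤ ∑ z, w b z ^ 2 := fun b =>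
    level_SS_le (fun z : Box n s ρ => z.1 b.1) (w b) (u b) (ψ b) (hwu b) (s b.1 + 1)
      (fun z => Nat.lt_succ_of_le (z.2.1 b.1))
  have hpen : ∀ b : {b : Fin n // b ≠ a},
      ∑ z, avgRel (LineRel a b.1) f z ^ 2 + penB a b.1 f ≤ ∑ z, w b z ^ 2 := fun b =>
    penB_le_of_lift' a b.1 (hab b) (fun z : Box n s ρ => z.1 b.1)
      (arm_class_level a b.1 (hab b) ha) f hf (w b) (hw b) (hwf b)
  -- transfer to the solid
  set s' : {b : Fin n // b ≠ a} → ℕ := fun b => s b.1 with hs'
  set ut : {b : Fin n // b ≠ a} → ({b : Fin n // b ≠ a} → ℕ) → ℝ :=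
    fun b x => armExt a b (u b) (Function.update x b 0) with hut
  have hutinv : ∀ b x v, ut b (Function.update x b v) = ut b x := by
    intro b x v
    rw [hut]
    simp only [Function.update_idem]
  have hval : ∀ b (z : Box n s ρ), ut b (armVec a z) = u b z := by
    intro b z
    rw [hut]
    refine armExt_spec a b (u b) (hu b) z _ (fun c hc => ?_)
    rw [Function.update_of_ne hc]
    rfl
  have hdual := solid_dual s' ut hutinv ρ
  have hSS1 : SS (Sig s' ρ) (fun x => ∑ b, ut b x)
      = SS (univ : Finset (Box n s ρ)) (fun z => ∑ b, u b z) := by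
    have h := SS_armVec (s := s) (ρ := ρ) a ha (fun _ => True) (fun x => ∑ b, ut b x)
    simp only [Finset.filter_true] at h
    rw [h]
    congr 1
    funext z
    exact Finset.sum_congr rfl (fun b _ => hval b z)
  have hSS2 : ∀ (b : {b : Fin n // b ≠ a}) (j : ℕ),
      SS ((Sig s' ρ).filter (fun x => x b = j)) (ut b)
        = SS (univ.filter (fun z : Box n s ρ => z.1 b.1 = j)) (u b) := by
    intro b j
    have h := SS_armVec (s := s) (ρ := ρ) a ha (fun x => x b = j) (ut b)
    rw [h]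
    have e : (fun z : Box n s ρ => ut b (armVec a z)) = u b := funext (fun z => hval b z)
    rw [e]
    rfl
  -- the Cauchy-Schwarz chain
  set Wtot : ℝ := ∑ b, ∑ z, w b z ^ 2 with hWtot
  set F2 : ℝ := ∑ z, f z ^ 2 with hF2
  set k : ℝ := (Fintype.card {b : Fin n // b ≠ a} : ℝ) with hk
  have hk0 : 0 ≤ k := Nat.cast_nonneg _
  have hF0 : 0 ≤ F2 := Finset.sum_nonneg (fun z _ => sq_nonneg _)
  have hW0 : 0 ≤ Wtot :=
    Finset.sum_nonneg (fun b _ => Finset.sum_nonneg (fun z _ => sq_nonneg _))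
  have hW1 : Wtot = BB (univ : Finset (Box n s ρ)) f (fun z => ∑ b, u b z) := by
    unfold BB
    rw [hf, zero_mul, zero_div, sub_zero, hWtot, Finset.sum_congr rfl (fun b _ => hnorm b),
      Finset.sum_comm]
    exact Finset.sum_congr rfl (fun z _ => by rw [Finset.mul_sum])
  have hSSf : SS (univ : Finset (Box n s ρ)) f = F2 := by
    rw [SS_def, hf]
    simp [hF2]
  have hCS := BB_sq_le (univ : Finset (Box n s ρ)) f (fun z => ∑ b, u b z)
  have hSSU : SS (univ : Finset (Box n s ρ)) (fun z => ∑ b, u b z) ≤ k * Wtot := by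
    rw [← hSS1]
    refine le_trans hdual ?_
    refine mul_le_mul_of_nonneg_left ?_ hk0
    refine Finset.sum_le_sum (fun b _ => ?_)
    rw [Finset.sum_congr rfl (fun j _ => hSS2 b j)]
    exact hlev b
  have hWle : Wtot ≤ k * F2 := by
    rcases eq_or_lt_of_le hW0 with h0 | hpos
    · rw [← h0]
      exact mul_nonneg hk0 hF0
    · have h1 : Wtot * Wtot ≤ Wtot * (k * F2) := by
        have h2 : Wtot ^ 2 ≤ F2 * (k * Wtot) := by
          rw [hSSf, ← hW1] at hCS
          exact le_trans hCS (mul_le_mul_of_nonneg_left hSSU hF0)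
        nlinarith
      exact le_of_mul_le_mul_left h1 hpos
  -- conclusion
  rw [sum_arms_ite a (fun b => penB a b f), sum_arms_ite a (fun b => QB a b f)]
  have hQ : ∀ b : {b : Fin n // b ≠ a},
      QB a b.1 f = F2 - ∑ z, avgRel (LineRel a b.1) f z ^ 2 := fun b => QB_eq a b.1 f
  rw [Finset.sum_congr rfl (fun b _ => hQ b), Finset.sum_sub_distrib]
  have hsum : ∑ b : {b : Fin n // b ≠ a},
      (∑ z, avgRel (LineRel a b.1) f z ^ 2 + penB a b.1 f) ≤ Wtot :=
    Finset.sum_le_sum (fun b _ => hpen b)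
  rw [Finset.sum_add_distrib] at hsum
  have hkF : ∑ _b : {b : Fin n // b ≠ a}, F2 = k * F2 := by
    simp only [Finset.sum_const, Finset.card_univ, nsmul_eq_mul]
    rw [hk]
  rw [hkF]
  linarith

end box

end Vale.Agent.H54.CT
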